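import Crest.Agent.X212.Flo26.Core
import Crest.Agent.X212.Glue52.More

/-! Flows: diffeomorphisms, naturality, calculus of fields, flow boxes, isotopies. -/

set_option autoImplicit false
set_option linter.unusedSectionVars false

open Set Filter Topology Function
open scoped ContDiff Manifold

noncomputable section

namespace Crest.Agent.X212.Flo26

universe u w

variable {E : Type u} [NormedAddCommGroup E] [NormedSpace ℝ E]
  {H : Type*} [TopologicalSpace H] {I : ModelWithCorners ℝ E H}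
  {M : Type*} [TopologicalSpace M] [ChartedSpace H M] [IsManifold I ∞ M]
  {E' : Type w} [NormedAddCommGroup E'] [NormedSpace ℝ E']
  {H' : Type*} [TopologicalSpace H'] {J : ModelWithCorners ℝ E' H'}
  {N : Type*} [TopologicalSpace N] [ChartedSpace H' N] [IsManifold J ∞ N]
  {v v' : (x : M) → TangentSpace I x}

/-! ### calculus of smooth fields -/

theorem SmV.zero : SmV I (fun x : M => (0 : TangentSpace I x)) :=
  Bundle.contMDiff_zeroSection ℝ (TangentSpace I)

theorem SmV.add (h : SmV I v) (h' : SmV I v') : SmV I (fun x => v x + v' x) :=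
  ContMDiff.add_section h h'

theorem SmV.smul {f : M → ℝ} (hf : ContMDiff I 𝓘(ℝ, ℝ) ∞ f) (h : SmV I v) :
    SmV I (fun x => f x • v x) := ContMDiff.smul_section hf h

theorem SmV.neg (h : SmV I v) : SmV I (fun x => -v x) := ContMDiff.neg_section h

theorem SmV.sum {ι : Type*} {s : Finset ι} {V : ι → (x : M) → TangentSpace I x}
    (h : ∀ i ∈ s, SmV I (V i)) : SmV I (fun x => ∑ i ∈ s, V i x) := ContMDiff.sum_section h

theorem smV_model {V : E → E} : SmV 𝓘(ℝ, E) V ↔ ContDiff ℝ ∞ V :=
  contMDiff_vectorSpace_iff_contDiff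

/-- a field on a product from its two components -/
theorem SmV.prod {a : (p : N × M) → TangentSpace J p.1} {b : (p : N × M) → TangentSpace I p.2}
    (ha : ContMDiff (J.prod I) J.tangent ∞ fun p => (⟨p.1, a p⟩ : TangentBundle J N))
    (hb : ContMDiff (J.prod I) I.tangent ∞ fun p => (⟨p.2, b p⟩ : TangentBundle I M)) :
    SmV (J.prod I) (fun p : N × M => ((a p, b p) : TangentSpace (J.prod I) p)) :=
  (contMDiff_equivTangentBundleProd_symm (n := ∞) (I := J) (M := N) (I' := I) (M' := M)).comp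
    (ha.prodMk hb)

/-- derivative of a smooth function along a smooth field is smooth -/
theorem SmV.tangent (h : SmV I v) {f : M → N} (hf : ContMDiff I J ∞ f) :
    ContMDiff I J.tangent ∞ fun x => (⟨f x, mfderiv I J f x (v x)⟩ : TangentBundle J N) :=
  (hf.contMDiff_tangentMap (m := ∞) (by simp)).comp h

/-- push-forward of a compactly supported field along an injective local diffeomorphism -/
theorem exists_push [T2Space N] {e : M → N} (he : IsLocalDiffeomorph I J ∞ e) (hi : Injective e)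
    (hv : SmV I v) {K : Set M} (hK : IsCompact K) (h0 : ∀ x ∉ K, v x = 0) :
    ∃ V : (y : N) → TangentSpace J y, SmV J V ∧ (∀ x, V (e x) = mfderiv I J e x (v x)) ∧
      ∀ y ∉ e '' K, V y = 0 := by
  classical
  let V : (y : N) → TangentSpace J y := fun y =>
    if h : ∃ x, e x = y then (mfderiv I J e h.choose (v h.choose) : E') else 0
  have h1 : ∀ x, V (e x) = mfderiv I J e x (v x) := fun x => by
    have h : ∃ x', e x' = e x := ⟨x, rfl⟩
    have : h.choose = x := hi h.choose_spec
    exact (dif_pos h).trans (congrArg (fun z => (mfderiv I J e z (v z) : E')) this)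
  have h2 : ∀ y ∉ e '' K, V y = 0 := fun y hy => by
    by_cases h : ∃ x, e x = y
    · obtain ⟨x, rfl⟩ := h
      rw [h1, h0 x fun hx => hy ⟨x, hx, rfl⟩, map_zero]
    · exact dif_neg h
  refine ⟨V, fun y => ?_, h1, h2⟩
  by_cases hy : y ∈ e '' K
  · obtain ⟨x, -, rfl⟩ := hy
    obtain ⟨Φ, hx, hΦ⟩ := he x
    have ht : e x ∈ Φ.target := by rw [hΦ hx]; exact Φ.map_source hx
    have h3 := (hv.tangent he.contMDiff).contMDiffAt.comp (e x)
      (Φ.contMDiffOn_invFun.contMDiffAt (Φ.open_target.mem_nhds ht))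
    refine h3.congr_of_eventuallyEq ?_
    filter_upwards [Φ.open_target.mem_nhds ht] with z hz
    have h4 : e (Φ.invFun z) = z := (hΦ (Φ.map_target hz)).trans (Φ.right_inv hz)
    simp only [comp]
    rw [← h1]
    exact (congrArg (fun y => (⟨y, V y⟩ : TangentBundle J N)) h4).symm
  · refine (SmV.zero (I := J) y).congr_of_eventuallyEq ?_
    filter_upwards [(hK.image he.contMDiff.continuous).isClosed.isOpen_compl.mem_nhds hy] with z hz
    rw [h2 z hz]

variable [I.Boundaryless] [T2Space M] [CompleteSpace E]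

/-! ### the time `t` map -/

theorem isOpen_slice (hv : SmV I v) (t : ℝ) : IsOpen {x | (t, x) ∈ dom v} :=
  (isOpen_dom hv).preimage (f := fun x : M => (t, x)) (by fun_prop)

theorem isOpen_time (hv : SmV I v) (x : M) : IsOpen {t : ℝ | (t, x) ∈ dom v} :=
  (isOpen_dom hv).preimage (f := fun t : ℝ => (t, x)) (by fun_prop)

theorem contMDiffOn_slice (hv : SmV I v) (t : ℝ) :
    ContMDiffOn I I ∞ (fl v t) {x | (t, x) ∈ dom v} :=
  (contMDiffOn_fl hv).comp (f := fun x : M => (t, x))
    (contMDiff_const.prodMk contMDiff_id).contMDiffOn fun _ hx => hx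

theorem ld_fl (hv : SmV I v) {t : ℝ} {x : M} (h : (t, x) ∈ dom v) :
    IsLocalDiffeomorphAt I I ∞ (fl v t) x :=
  Glue52.ld_of_inverse (g := fl v (-t)) (isOpen_slice hv t) (isOpen_slice hv (-t)) h
    (contMDiffOn_slice hv t) (contMDiffOn_slice hv (-t)) (fun _ hy => (neg_mem_dom hv hy).1)
    (fun _ hy => by simpa using (neg_mem_dom hv hy).1) (fun _ hy => (neg_mem_dom hv hy).2)
    (fun _ hy => by simpa using (neg_mem_dom hv hy).2)

/-- complete field -/
def Cpl (v : (x : M) → TangentSpace I x) : Prop := ∀ p, p ∈ dom v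

theorem Cpl.contMDiff (hv : SmV I v) (hc : Cpl v) :
    ContMDiff (𝓘(ℝ, ℝ).prod I) I ∞ (fun p : ℝ × M => fl v p.1 p.2) :=
  fun p => contMDiffAt_fl hv (hc p)

theorem Cpl.add (hv : SmV I v) (hc : Cpl v) (s t : ℝ) (x : M) :
    fl v (s + t) x = fl v s (fl v t x) := (fl_add hv (hc _) (hc _)).2

theorem Cpl.curve (hv : SmV I v) (hc : Cpl v) (x : M) :
    IsMIntegralCurve (fun s => fl v s x) v := fun _ => hasMFDerivAt_fl hv (hc _)

/-- the time `t` diffeomorphism of a complete field -/
def flD (hv : SmV I v) (hc : Cpl v) (t : ℝ) : M ≃ₘ^∞⟮I, I⟯ M :=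
  Glue52.diffeoOf (fl v t) (fl v (-t))
    ((hc.contMDiff hv).comp (f := fun x : M => (t, x)) (contMDiff_const.prodMk contMDiff_id))
    ((hc.contMDiff hv).comp (f := fun x : M => (-t, x)) (contMDiff_const.prodMk contMDiff_id))
    (fun _ => (neg_mem_dom hv (hc _)).2) (fun x => by simpa using (neg_mem_dom hv (hc (-t, x))).2)

@[simp] theorem flD_apply (hv : SmV I v) (hc : Cpl v) (t : ℝ) (x : M) :
    flD hv hc t x = fl v t x := rfl

@[simp] theorem flD_symm_apply (hv : SmV I v) (hc : Cpl v) (t : ℝ) (x : M) :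
    (flD hv hc t).symm x = fl v (-t) x := rfl

theorem isCurveAt_fl (hv : SmV I v) {t : ℝ} {x : M} (h : (t, x) ∈ dom v) :
    IsMIntegralCurveAt (fun s => fl v s x) v t := by
  filter_upwards [(isOpen_time hv x).mem_nhds h] with s hs using hasMFDerivAt_fl hv hs

theorem continuousAt_time (hv : SmV I v) {t : ℝ} {x : M} (h : (t, x) ∈ dom v) :
    ContinuousAt (fun s => fl v s x) t := (hasMFDerivAt_fl hv h).continuousAt

set_option backward.isDefEq.respectTransparency false in
theorem hasMFDerivAt_comp_fl (hv : SmV I v) {t : ℝ} {x : M} (h : (t, x) ∈ dom v) {f : M → N}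
    (hf : MDifferentiableAt I J f (fl v t x)) :
    HasMFDerivAt 𝓘(ℝ, ℝ) J (fun s => f (fl v s x)) t
      ((1 : ℝ →L[ℝ] ℝ).smulRight (mfderiv I J f (fl v t x) (v (fl v t x)))) := by
  refine (hf.hasMFDerivAt.comp t (hasMFDerivAt_fl hv h)).congr_mfderiv ?_
  ext
  simp

/-- derivative of a function along the flow -/
theorem hasDerivAt_comp_fl (hv : SmV I v) {t : ℝ} {x : M} (h : (t, x) ∈ dom v) {f : M → E'}
    (hf : MDifferentiableAt I 𝓘(ℝ, E') f (fl v t x)) :
    HasDerivAt (fun s => f (fl v s x)) (mfderiv I 𝓘(ℝ, E') f (fl v t x) (v (fl v t x)) : E') t :=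
  hasMFDerivAt_iff_hasFDerivAt.1 (hasMFDerivAt_comp_fl hv h hf)

/-- a function with constant derivative `c` along the flow line is affine on it -/
theorem comp_fl_eq (hv : SmV I v) {T : ℝ} {x : M} (h : (T, x) ∈ dom v) {f : M → E'} {c : E'}
    (hf : ∀ s ∈ uIcc 0 T, MDifferentiableAt I 𝓘(ℝ, E') f (fl v s x) ∧
      mfderiv I 𝓘(ℝ, E') f (fl v s x) (v (fl v s x)) = c) : f (fl v T x) = f x + T • c := by
  have h1 : ∀ s ∈ uIcc 0 T, HasDerivAt (fun s => f (fl v s x) - s • c) 0 s := fun s hs => by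
    have h2 := hasDerivAt_comp_fl hv (mem_dom_of_uIcc h hs) (hf s hs).1
    rw [(hf s hs).2] at h2
    have h3 := h2.sub ((hasDerivAt_id s).smul_const c)
    rw [one_smul, sub_self] at h3
    exact h3
  have h3 := (convex_uIcc 0 T).is_const_of_fderivWithin_eq_zero (𝕜 := ℝ)
    (f := fun s => f (fl v s x) - s • c)
    (fun s hs => (h1 s hs).differentiableAt.differentiableWithinAt) (x := T) (y := 0)
  by_cases hT : T = 0
  · subst hT; simp [fl_zero hv]
  have h4 := h3 (fun s hs => by
    rw [(h1 s hs).hasFDerivAt.hasFDerivWithinAt.fderivWithin (uniqueDiffOn_convex (convex_uIcc 0 T)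
      (by rw [uIcc, interior_Icc]; exact nonempty_Ioo.2 (min_lt_max.2 (Ne.symm hT))) s hs)]
    simp) right_mem_uIcc left_mem_uIcc
  simp only [fl_zero hv, zero_smul, sub_zero] at h4
  rw [← h4]; abel

/-- naturality: `f` maps `v` to `V` on an open set containing the flow line -/
theorem fl_map [J.Boundaryless] [T2Space N] [CompleteSpace E'] (hv : SmV I v)
    {V : (y : N) → TangentSpace J y} (hV : SmV J V) {f : M → N} {U : Set M} (hU : IsOpen U)
    (hf : ∀ x ∈ U, MDifferentiableAt I J f x ∧ mfderiv I J f x (v x) = V (f x)) {T : ℝ} {x : M}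
    (h : (T, x) ∈ dom v) (hm : ∀ s ∈ uIcc 0 T, fl v s x ∈ U) :
    (T, f x) ∈ dom V ∧ fl V T (f x) = f (fl v T x) := by
  have := fl_of_curve hV (γ := fun s => f (fl v s x)) (T := T) fun s hs => by
    have hd := mem_dom_of_uIcc h hs
    filter_upwards [(isOpen_time hv x).mem_nhds hd,
      (continuousAt_time hv hd).preimage_mem_nhds (hU.mem_nhds (hm s hs))] with r h1 h2
    rw [← (hf _ h2).2]
    exact hasMFDerivAt_comp_fl hv h1 (hf _ h2).1
  simpa only [fl_zero hv] using this

/-- two fields that agree on an open set containing the flow line -/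
theorem fl_congr (hv : SmV I v) (hv' : SmV I v') {U : Set M} (hU : IsOpen U)
    (he : ∀ x ∈ U, v x = v' x) {T : ℝ} {x : M} (h : (T, x) ∈ dom v)
    (hm : ∀ s ∈ uIcc 0 T, fl v s x ∈ U) : (T, x) ∈ dom v' ∧ fl v' T x = fl v T x :=
  fl_map hv hv' (f := id) hU (fun y hy => ⟨mdifferentiableAt_id, by
    rw [mfderiv_id]; exact he y hy⟩) h hm

/-- the flow preserves its field -/
theorem mfderiv_fl (hv : SmV I v) {t : ℝ} {x : M} (h : (t, x) ∈ dom v) :
    mfderiv I I (fl v t) x (v x) = v (fl v t x) := by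
  have h0 := zero_mem_dom hv x
  have h1 := hasMFDerivAt_comp_fl hv h0 (f := fl v t) (J := I) (by
    rw [fl_zero hv]; exact (ld_fl hv h).contMDiffAt.mdifferentiableAt (by simp))
  have h2 : HasMFDerivAt 𝓘(ℝ, ℝ) I (fun s => fl v t (fl v s x)) 0
      ((1 : ℝ →L[ℝ] ℝ).smulRight (v (fl v t (fl v 0 x)))) := by
    have h3 := ((isCurveAt_fl hv (t := 0 + t) (by simpa using h)).comp_add (t₀ := 0 + t) t)
    rw [add_sub_cancel_right] at h3
    have h4 : (fun s => fl v t (fl v s x)) =ᶠ[𝓝 0] ((fun s => fl v s x) ∘ (· + t)) := by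
      have h5 : (fun s => fl v s x) ⁻¹' {y | (t, y) ∈ dom v} ∈ 𝓝 (0 : ℝ) :=
        (continuousAt_time hv h0).preimage_mem_nhds
          ((isOpen_slice hv t).mem_nhds (by simpa [fl_zero hv] using h))
      filter_upwards [(isOpen_time hv x).mem_nhds h0, h5] with s h6 h7
      simp only [comp]
      rw [add_comm, (fl_add hv h6 h7).2]
    have h6 := h3.hasMFDerivAt.congr_of_eventuallyEq h4
    have h7 : ((fun s => fl v s x) ∘ (· + t)) 0 = fl v t (fl v 0 x) := h4.eq_of_nhds.symm
    rw [h7] at h6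
    exact h6
  have h8 : (1 : ℝ) • (mfderiv I I (fl v t) (fl v 0 x) (v (fl v 0 x)) : E) =
      (1 : ℝ) • (v (fl v t (fl v 0 x)) : E) :=
    congrArg (fun L : ℝ →L[ℝ] E => L 1) (hasMFDerivAt_unique h1 h2)
  rw [one_smul, one_smul, fl_zero hv] at h8
  exact h8

end Crest.Agent.X212.Flo26
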