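import Mathlib
import Crest.Agent.Lib.ODEFlow

/-! Maximal flow of a smooth vector field on a boundaryless manifold. -/

set_option autoImplicit false
set_option linter.unusedSectionVars false

open Set Filter Topology Function
open scoped ContDiff Manifold

noncomputable section

namespace Crest.Agent.X212.Flo26

universe u

variable {E : Type u} [NormedAddCommGroup E] [NormedSpace ℝ E]
  {H : Type*} [TopologicalSpace H] {I : ModelWithCorners ℝ E H}
  {M : Type*} [TopologicalSpace M] [ChartedSpace H M] [IsManifold I ∞ M]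

variable (I) in
/-- smooth vector field -/
def SmV (v : (x : M) → TangentSpace I x) : Prop :=
  ContMDiff I I.tangent ∞ (fun x => (⟨x, v x⟩ : TangentBundle I M))

/-- `γ` is an integral curve on `(a,b) ∋ 0` starting at `x` -/
def Cur (v : (x : M) → TangentSpace I x) (x : M) (a b : ℝ) (γ : ℝ → M) : Prop :=
  (0 : ℝ) ∈ Ioo a b ∧ γ 0 = x ∧ IsMIntegralCurveOn γ v (Ioo a b)

/-- domain of the maximal flow -/
def dom (v : (x : M) → TangentSpace I x) : Set (ℝ × M) :=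
  {p | ∃ a b γ, Cur v p.2 a b γ ∧ p.1 ∈ Ioo a b}

open Classical in
/-- the maximal flow (junk value `x` off `dom v`) -/
def fl (v : (x : M) → TangentSpace I x) (t : ℝ) (x : M) : M :=
  if h : (t, x) ∈ dom v then h.choose_spec.choose_spec.choose t else x

variable {v : (x : M) → TangentSpace I x}

theorem SmV.one (hv : SmV I v) :
    ContMDiff I I.tangent 1 (fun x => (⟨x, v x⟩ : TangentBundle I M)) :=
  ContMDiff.of_le hv (by simp)

variable [I.Boundaryless] [T2Space M]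

theorem Cur.eq (hv : SmV I v) {x : M} {a b a' b' t : ℝ} {γ γ' : ℝ → M} (h : Cur v x a b γ)
    (h' : Cur v x a' b' γ') (ht : t ∈ Ioo a b) (ht' : t ∈ Ioo a' b') : γ t = γ' t := by
  have h0 : (0 : ℝ) ∈ Ioo (max a a') (min b b') :=
    ⟨max_lt h.1.1 h'.1.1, lt_min h.1.2 h'.1.2⟩
  exact isMIntegralCurveOn_Ioo_eqOn_of_contMDiff_boundaryless h0 hv.one
    (h.2.2.mono (Ioo_subset_Ioo (le_max_left _ _) (min_le_left _ _)))
    (h'.2.2.mono (Ioo_subset_Ioo (le_max_right _ _) (min_le_right _ _)))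
    (h.2.1.trans h'.2.1.symm) ⟨max_lt ht.1 ht'.1, lt_min ht.2 ht'.2⟩

theorem Cur.mem {x : M} {a b t : ℝ} {γ : ℝ → M} (h : Cur v x a b γ) (ht : t ∈ Ioo a b) :
    (t, x) ∈ dom v := ⟨a, b, γ, h, ht⟩

theorem Cur.fl_eq (hv : SmV I v) {x : M} {a b t : ℝ} {γ : ℝ → M} (h : Cur v x a b γ)
    (ht : t ∈ Ioo a b) : fl v t x = γ t := by
  have hm := h.mem ht
  rw [fl, dif_pos hm]
  exact Cur.eq hv hm.choose_spec.choose_spec.choose_spec.1 h
    hm.choose_spec.choose_spec.choose_spec.2 ht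

theorem fl_zero (hv : SmV I v) (x : M) : fl v 0 x = x := by
  by_cases h : ((0 : ℝ), x) ∈ dom v
  · obtain ⟨a, b, γ, hc, ht⟩ := h
    rw [hc.fl_eq hv ht]; exact hc.2.1
  · rw [fl, dif_neg h]

theorem mem_dom_of_uIcc {x : M} {t s : ℝ} (h : (t, x) ∈ dom v) (hs : s ∈ uIcc 0 t) :
    (s, x) ∈ dom v := by
  obtain ⟨a, b, γ, hc, ht⟩ := h
  exact hc.mem (ordConnected_Ioo.uIcc_subset hc.1 ht hs)

/-- group law -/
theorem fl_add (hv : SmV I v) {x : M} {s t : ℝ} (h1 : (t, x) ∈ dom v)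
    (h2 : (s, fl v t x) ∈ dom v) : (s + t, x) ∈ dom v ∧ fl v (s + t) x = fl v s (fl v t x) := by
  classical
  obtain ⟨a, b, γ, hc, ht⟩ := h1
  obtain ⟨a', b', γ', hc', hs⟩ := h2
  simp only at hc ht hc' hs
  have hδ : IsMIntegralCurveOn (γ' ∘ (· - t)) v (Ioo (a' + t) (b' + t)) := by
    have := (isMIntegralCurveOn_comp_sub (γ := γ') (v := v) (s := Ioo a' b') (dt := t)).2 hc'.2.2
    refine this.mono fun u hu => ?_
    simp only [mem_ofPred_eq, mem_Ioo] at hu ⊢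
    constructor <;> linarith [hu.1, hu.2]
  have ht' : t ∈ Ioo (a' + t) (b' + t) := ⟨by linarith [hc'.1.1], by linarith [hc'.1.2]⟩
  have he : γ t = (γ' ∘ (· - t)) t := by
    simp only [comp, sub_self]; rw [hc'.2.1, hc.fl_eq hv ht]
  have hp := isMIntegralCurveOn_piecewise hv.one hc.2.2 hδ ⟨ht, ht'⟩ he
  have hq := eqOn_piecewise_of_isMIntegralCurveOn_Ioo hv.one hc.2.2 hδ ⟨ht, ht'⟩ he
  have hU : Ioo (min a (a' + t)) (max b (b' + t)) ⊆ Ioo a b ∪ Ioo (a' + t) (b' + t) := by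
    intro u hu
    rcases le_total u t with h | h
    · rcases min_lt_iff.1 hu.1 with h' | h'
      · exact Or.inl ⟨h', h.trans_lt ht.2⟩
      · exact Or.inr ⟨h', h.trans_lt ht'.2⟩
    · rcases lt_max_iff.1 hu.2 with h' | h'
      · exact Or.inl ⟨ht.1.trans_le h, h'⟩
      · exact Or.inr ⟨ht'.1.trans_le h, h'⟩
  have hst : s + t ∈ Ioo (a' + t) (b' + t) := ⟨by linarith [hs.1], by linarith [hs.2]⟩
  have hC : Cur v x (min a (a' + t)) (max b (b' + t))
      (piecewise (Ioo a b) γ (γ' ∘ (· - t))) :=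
    ⟨⟨min_lt_iff.2 (Or.inl hc.1.1), lt_max_iff.2 (Or.inl hc.1.2)⟩,
      by rw [piecewise_eq_of_mem _ _ _ hc.1]; exact hc.2.1, hp.mono hU⟩
  have hm : s + t ∈ Ioo (min a (a' + t)) (max b (b' + t)) :=
    ⟨min_lt_iff.2 (Or.inr hst.1), lt_max_iff.2 (Or.inr hst.2)⟩
  refine ⟨hC.mem hm, ?_⟩
  rw [hC.fl_eq hv hm, hq hst, hc'.fl_eq hv hs]
  simp

/-- the field in the chart at `x₀` -/
def loc (v : (x : M) → TangentSpace I x) (x₀ : M) (y : E) : E :=
  tangentCoordChange I ((extChartAt I x₀).symm y) x₀ ((extChartAt I x₀).symm y)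
    (v ((extChartAt I x₀).symm y))

theorem contDiffOn_loc (hv : SmV I v) (x₀ : M) :
    ContDiffOn ℝ ∞ (loc v x₀) (extChartAt I x₀).target := by
  have h1 : ContMDiffOn I 𝓘(ℝ, E) ∞
      (fun x => (trivializationAt E (TangentSpace I) x₀ ⟨x, v x⟩).2) (chartAt H x₀).source :=
    (Bundle.Trivialization.contMDiffOn_section_baseSet_iff
      (trivializationAt E (TangentSpace I) x₀)).1 hv.contMDiffOn
  have h2 := h1.comp (contMDiffOn_extChartAt_symm (I := I) (n := ∞) x₀) (fun y hy => by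
    have := (extChartAt I x₀).map_target hy
    rwa [extChartAt_source] at this)
  exact contMDiffOn_iff_contDiffOn.1 h2

set_option backward.isDefEq.respectTransparency false in
theorem hasMFDerivAt_of_loc (x₀ : M) {f : ℝ → E} {t : ℝ} (hf : f t ∈ (extChartAt I x₀).target)
    (h : HasDerivAt f (loc v x₀ (f t)) t) :
    HasMFDerivAt 𝓘(ℝ, ℝ) I ((extChartAt I x₀).symm ∘ f) t
      ((1 : ℝ →L[ℝ] ℝ).smulRight (v (((extChartAt I x₀).symm ∘ f) t))) := by
  let xₜ : M := (extChartAt I x₀).symm (f t)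
  have hft1 := mem_preimage.mp <|
    mem_of_mem_of_subset hf (extChartAt I x₀).target_subset_preimage_source
  have hft2 := mem_extChartAt_source (I := I) xₜ
  refine ⟨(continuousAt_extChartAt_symm'' hf).comp h.continuousAt,
    HasDerivWithinAt.hasFDerivWithinAt ?_⟩
  simp only [mfld_simps, hasDerivWithinAt_univ]
  change HasDerivAt ((extChartAt I xₜ ∘ (extChartAt I x₀).symm) ∘ f) (v xₜ) t
  rw [← tangentCoordChange_self (I := I) (x := xₜ) (z := xₜ) (v := v xₜ) hft2,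
    ← tangentCoordChange_comp (x := x₀) ⟨⟨hft2, hft1⟩, hft2⟩]
  apply HasFDerivAt.comp_hasDerivAt _ _ h
  apply HasFDerivWithinAt.hasFDerivAt (s := range I) _ <|
    mem_of_superset ((isOpen_extChartAt_target x₀).mem_nhds hf) (extChartAt_target_subset_range ..)
  rw [← (extChartAt I x₀).right_inv hf]
  exact hasFDerivWithinAt_tangentCoordChange ⟨hft1, hft2⟩

variable [CompleteSpace E]

/-- local smooth flow -/
theorem exists_loc (hv : SmV I v) (x₀ : M) : ∃ ε > (0 : ℝ), ∃ W : Set M, IsOpen W ∧ x₀ ∈ W ∧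
    Ioo (-ε) ε ×ˢ W ⊆ dom v ∧
    ContMDiffOn (𝓘(ℝ, ℝ).prod I) I ∞ (fun p : ℝ × M => fl v p.1 p.2) (Ioo (-ε) ε ×ˢ W) := by
  set φ := extChartAt I x₀
  have hU : IsOpen φ.target := isOpen_extChartAt_target x₀
  have hw := contDiffOn_loc hv x₀
  have hw1 : ContDiffOn ℝ 1 (loc v x₀) φ.target := hw.of_le (by simp)
  obtain ⟨ε, hε, W, hW, hxW, hd⟩ := Lib.ODEFlow.exists_uniform_time hU hw1
    (isCompact_singleton (x := φ x₀)) (singleton_subset_iff.2 (mem_extChartAt_target x₀))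
  have hc : ∀ x ∈ φ.source ∩ φ ⁻¹' W, Cur v x (-ε) ε
      (φ.symm ∘ fun t => Lib.ODEFlow.flow (loc v x₀) φ.target (φ x, t)) := by
    intro x hx
    refine ⟨⟨by linarith, hε⟩, ?_, fun t ht => ?_⟩
    · simp only [comp]
      rw [Lib.ODEFlow.flow_zero hU hw1 (φ.map_source hx.1), φ.left_inv hx.1]
    · have hm := hd _ hx.2 t (abs_lt.2 ht)
      exact (hasMFDerivAt_of_loc x₀ (Lib.ODEFlow.flow_mem hU hw1 hm)
        (Lib.ODEFlow.hasDerivAt_flow hU hw1 hm)).hasMFDerivWithinAt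
  refine ⟨ε, hε, φ.source ∩ φ ⁻¹' W, isOpen_extChartAt_preimage' x₀ hW,
    ⟨mem_extChartAt_source x₀, hxW rfl⟩, fun p hp => (hc _ hp.2).mem hp.1, ?_⟩
  have h1 : ContMDiffOn (𝓘(ℝ, ℝ).prod I) 𝓘(ℝ, E × ℝ) ∞ (fun p : ℝ × M => (φ p.2, p.1))
      (Ioo (-ε) ε ×ˢ (φ.source ∩ φ ⁻¹' W)) := by
    refine ContMDiffOn.prodMk_space ?_ contMDiffOn_fst
    refine (contMDiffOn_extChartAt (I := I) (n := ∞) (x := x₀)).comp contMDiffOn_snd
      fun p hp => ?_
    have := hp.2.1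
    rwa [extChartAt_source] at this
  have h2 : ContMDiffOn 𝓘(ℝ, E × ℝ) 𝓘(ℝ, E) ∞ (Lib.ODEFlow.flow (loc v x₀) φ.target)
      (Lib.ODEFlow.dom (loc v x₀) φ.target) :=
    contMDiffOn_iff_contDiffOn.2 (Lib.ODEFlow.contDiffOn_flow (n := ⊤) le_top hU hw)
  have h3 := h2.comp h1 fun p hp => hd _ hp.2.2 _ (abs_lt.2 hp.1)
  have h4 := (contMDiffOn_extChartAt_symm (I := I) (n := ∞) x₀).comp h3 fun p hp =>
    Lib.ODEFlow.flow_mem hU hw1 (hd _ hp.2.2 _ (abs_lt.2 hp.1))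
  exact h4.congr fun p hp => (hc _ hp.2).fl_eq hv hp.1

theorem zero_mem_dom (hv : SmV I v) (x : M) : ((0 : ℝ), x) ∈ dom v := by
  obtain ⟨ε, hε, W, -, hx, hd, -⟩ := exists_loc hv x
  exact hd ⟨⟨by linarith, hε⟩, hx⟩

theorem exists_open (hv : SmV I v) {p : ℝ × M} (hp : p ∈ dom v) : ∃ O : Set (ℝ × M), IsOpen O ∧
    p ∈ O ∧ O ⊆ dom v ∧ ContMDiffOn (𝓘(ℝ, ℝ).prod I) I ∞ (fun p : ℝ × M => fl v p.1 p.2) O := by
  obtain ⟨t₁, x₀⟩ := p
  obtain ⟨a, b, γ, hc, ht₁⟩ := hp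
  simp only at hc ht₁
  let S : Set ℝ := {t | ∃ O : Set (ℝ × M), IsOpen O ∧ (t, x₀) ∈ O ∧ O ⊆ dom v ∧
    ContMDiffOn (𝓘(ℝ, ℝ).prod I) I ∞ (fun p : ℝ × M => fl v p.1 p.2) O}
  have hS : IsOpen S := by
    rw [isOpen_iff_mem_nhds]
    rintro t ⟨O, hO, h1, h2, h3⟩
    have : (fun s : ℝ => (s, x₀)) ⁻¹' O ∈ 𝓝 t :=
      (hO.preimage (by fun_prop)).mem_nhds h1
    filter_upwards [this] with s hs using ⟨O, hO, hs, h2, h3⟩
  suffices h : Ioo a b ⊆ S from h ht₁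
  refine isPreconnected_Ioo.subset_of_closure_inter_subset hS ⟨0, hc.1, ?_⟩ ?_
  · obtain ⟨ε, hε, W, hW, hx, hd, hs⟩ := exists_loc hv x₀
    exact ⟨_, isOpen_Ioo.prod hW, ⟨⟨by linarith, hε⟩, hx⟩, hd, hs⟩
  rintro t ⟨htc, ht⟩
  obtain ⟨ε, hε, W, hW, hx, hd, hs⟩ := exists_loc hv (γ t)
  have hγ : ContinuousAt γ t := (hc.2.2.isMIntegralCurveAt (isOpen_Ioo.mem_nhds ht)).continuousAt
  have hn : γ ⁻¹' W ∩ (Ioo a b ∩ Ioo (t - ε) (t + ε)) ∈ 𝓝 t :=
    inter_mem (hγ.preimage_mem_nhds (hW.mem_nhds hx))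
      (inter_mem (isOpen_Ioo.mem_nhds ht) (isOpen_Ioo.mem_nhds ⟨by linarith, by linarith⟩))
  obtain ⟨t', ⟨h1, h2, h3⟩, O, hO, hO1, hO2, hO3⟩ := mem_closure_iff_nhds.1 htc _ hn
  let A : Set M := (fun x : M => (t', x)) ⁻¹' O
  have hA : IsOpen A := hO.preimage (by fun_prop)
  have hf : ContMDiffOn I I ∞ (fun x => fl v t' x) A :=
    hO3.comp (f := fun x : M => (t', x)) (contMDiff_const.prodMk contMDiff_id).contMDiffOn
      fun x hx => hx
  have hB : IsOpen (A ∩ (fun x => fl v t' x) ⁻¹' W) :=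
    hf.continuousOn.isOpen_inter_preimage hA hW
  have key : ∀ p ∈ Ioo (t' - ε) (t' + ε) ×ˢ (A ∩ (fun x => fl v t' x) ⁻¹' W),
      p ∈ dom v ∧ fl v p.1 p.2 = fl v (p.1 - t') (fl v t' p.2) := by
    rintro ⟨s, x⟩ ⟨hs1, hx1, hx2⟩
    have := fl_add hv (s := s - t') (hO2 hx1)
      (hd (show (s - t', fl v t' x) ∈ _ from ⟨⟨by linarith [hs1.1], by linarith [hs1.2]⟩, hx2⟩))
    rwa [sub_add_cancel] at this
  refine ⟨_, isOpen_Ioo.prod hB, ⟨⟨by linarith [h3.2], by linarith [h3.1]⟩, hO1, ?_⟩,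
    fun p hp => (key p hp).1, ?_⟩
  · show fl v t' x₀ ∈ W
    rw [hc.fl_eq hv h2]; exact h1
  · refine ContMDiffOn.congr ?_ fun p hp => (key p hp).2
    refine hs.comp (f := fun p : ℝ × M => (p.1 - t', fl v t' p.2)) ?_ fun p hp =>
      ⟨⟨by linarith [hp.1.1], by linarith [hp.1.2]⟩, hp.2.2⟩
    refine ContMDiffOn.prodMk ?_ (hf.comp contMDiffOn_snd fun p hp => hp.2.1)
    exact ((contDiff_id.sub contDiff_const).contMDiff.comp contMDiff_fst).contMDiffOn

theorem isOpen_dom (hv : SmV I v) : IsOpen (dom v) := by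
  rw [isOpen_iff_mem_nhds]
  intro p hp
  obtain ⟨O, hO, h1, h2, -⟩ := exists_open hv hp
  exact mem_of_superset (hO.mem_nhds h1) h2

theorem contMDiffAt_fl (hv : SmV I v) {p : ℝ × M} (hp : p ∈ dom v) :
    ContMDiffAt (𝓘(ℝ, ℝ).prod I) I ∞ (fun p : ℝ × M => fl v p.1 p.2) p := by
  obtain ⟨O, hO, h1, -, h3⟩ := exists_open hv hp
  exact h3.contMDiffAt (hO.mem_nhds h1)

theorem contMDiffOn_fl (hv : SmV I v) :
    ContMDiffOn (𝓘(ℝ, ℝ).prod I) I ∞ (fun p : ℝ × M => fl v p.1 p.2) (dom v) :=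
  fun _ hp => (contMDiffAt_fl hv hp).contMDiffWithinAt

/-- flow lines are integral curves -/
theorem hasMFDerivAt_fl (hv : SmV I v) {t : ℝ} {x : M} (h : (t, x) ∈ dom v) :
    HasMFDerivAt 𝓘(ℝ, ℝ) I (fun s => fl v s x) t
      ((1 : ℝ →L[ℝ] ℝ).smulRight (v (fl v t x))) := by
  obtain ⟨a, b, γ, hc, ht⟩ := h
  simp only at hc ht
  have h1 := (hc.2.2.isMIntegralCurveAt (isOpen_Ioo.mem_nhds ht)).hasMFDerivAt
  rw [hc.fl_eq hv ht]
  refine h1.congr_of_eventuallyEq ?_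
  filter_upwards [isOpen_Ioo.mem_nhds ht] with s hs using hc.fl_eq hv hs

theorem neg_mem_dom (hv : SmV I v) {t : ℝ} {x : M} (h : (t, x) ∈ dom v) :
    (-t, fl v t x) ∈ dom v ∧ fl v (-t) (fl v t x) = x := by
  obtain ⟨a, b, γ, hc, ht⟩ := h
  simp only at hc ht
  have hC : Cur v (fl v t x) (a - t) (b - t) (γ ∘ (· + t)) := by
    refine ⟨⟨by linarith [ht.1], by linarith [ht.2]⟩, by simp [hc.fl_eq hv ht], ?_⟩
    refine (hc.2.2.comp_add t).mono fun u hu => ?_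
    simp only [mem_ofPred_eq, mem_Ioo] at hu ⊢
    constructor <;> linarith [hu.1, hu.2]
  have hm : -t ∈ Ioo (a - t) (b - t) := ⟨by linarith [hc.1.1], by linarith [hc.1.2]⟩
  refine ⟨hC.mem hm, ?_⟩
  rw [hC.fl_eq hv hm]; simpa using hc.2.1

theorem exists_uniform (hv : SmV I v) {K : Set M} (hK : IsCompact K) :
    ∃ ε > (0 : ℝ), ∀ x ∈ K, ∀ t, |t| < ε → (t, x) ∈ dom v := by
  obtain ⟨J, W, hJ, -, h0, hKW, hsub⟩ := generalized_tube_lemma
    (isCompact_singleton (x := (0 : ℝ))) hK (isOpen_dom hv) (by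
      rintro ⟨t, x⟩ ⟨ht, -⟩
      rw [mem_singleton_iff] at ht
      simp only at ht; subst ht
      exact zero_mem_dom hv x)
  obtain ⟨ε, hε, hb⟩ := Metric.isOpen_iff.1 hJ 0 (h0 rfl)
  exact ⟨ε, hε, fun x hx t ht => hsub ⟨hb (by simpa using ht), hKW hx⟩⟩

/-- escape lemma: a flow line that stays in a compact set goes on -/
theorem mem_dom_of_compact (hv : SmV I v) {K : Set M} (hK : IsCompact K) {x : M} {T : ℝ}
    (h : ∀ s ∈ uIcc 0 T, (s, x) ∈ dom v → fl v s x ∈ K) : (T, x) ∈ dom v := by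
  obtain ⟨ε, hε, hu⟩ := exists_uniform hv hK
  have key : ∀ n : ℕ, ∀ s ∈ uIcc 0 T, |s| ≤ n * (ε / 2) → (s, x) ∈ dom v := by
    intro n
    induction n with
    | zero =>
      intro s _ hs
      have : s = 0 := by simpa using hs
      rw [this]; exact zero_mem_dom hv x
    | succ n ih =>
      intro s hs hn
      have hp : (0 : ℝ) < n + 1 := by positivity
      have hs' : s * (n / (n + 1)) ∈ uIcc 0 s :=
        Lib.ODEFlow.mul_mem_uIcc right_mem_uIcc
          ⟨by positivity, (div_le_one hp).2 (by linarith)⟩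
      have hs'' : s * (n / (n + 1)) ∈ uIcc 0 T := uIcc_subset_uIcc left_mem_uIcc hs hs'
      push_cast at hn
      have h1 : |s| / (n + 1) ≤ ε / 2 := by rw [div_le_iff₀ hp]; linarith
      have hd := ih _ hs'' (by
        rw [abs_mul, abs_of_nonneg (a := (n / (n + 1) : ℝ)) (by positivity)]
        calc |s| * (n / (n + 1)) = n * (|s| / (n + 1)) := by ring
          _ ≤ _ := mul_le_mul_of_nonneg_left h1 (by positivity))
      have := (fl_add hv (s := s / (n + 1)) hd (hu _ (h _ hs'' hd) _ (by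
        rw [abs_div, abs_of_pos hp]; linarith))).1
      rwa [show s / (n + 1) + s * (n / (n + 1)) = s by field_simp; ring] at this
  obtain ⟨n, hn⟩ := exists_nat_ge (|T| / (ε / 2))
  exact key n T right_mem_uIcc (by rwa [div_le_iff₀ (by positivity)] at hn)

/-- any integral curve is a flow line -/
theorem fl_of_curve (hv : SmV I v) {γ : ℝ → M} {T : ℝ}
    (ho : ∀ s ∈ uIcc 0 T, IsMIntegralCurveAt γ v s) :
    (T, γ 0) ∈ dom v ∧ fl v T (γ 0) = γ T := by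
  have hO : IsOpen {s | IsMIntegralCurveAt γ v s} := by
    rw [isOpen_iff_mem_nhds]; intro s hs; exact eventually_eventually_nhds.2 hs
  obtain ⟨δ, hδ, hsub⟩ := isCompact_uIcc.exists_thickening_subset_open hO ho
  have hC : Cur v (γ 0) (min 0 T - δ) (max 0 T + δ) γ := by
    refine ⟨⟨by linarith [min_le_left 0 T], by linarith [le_max_left 0 T]⟩, rfl,
      IsMIntegralCurveAt.isMIntegralCurveOn fun s hs => hsub ?_⟩
    rw [Metric.mem_thickening_iff]
    rcases le_total s (min 0 T) with h1 | h1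
    · refine ⟨min 0 T, ⟨le_rfl, min_le_max⟩, ?_⟩
      rw [Real.dist_eq, abs_lt]; constructor <;> linarith [hs.1]
    rcases le_total s (max 0 T) with h2 | h2
    · exact ⟨s, ⟨h1, h2⟩, by simpa using hδ⟩
    · refine ⟨max 0 T, ⟨min_le_max, le_rfl⟩, ?_⟩
      rw [Real.dist_eq, abs_lt]; constructor <;> linarith [hs.2]
  have hm : T ∈ Ioo (min 0 T - δ) (max 0 T + δ) :=
    ⟨by linarith [min_le_right 0 T], by linarith [le_max_right 0 T]⟩
  exact ⟨hC.mem hm, hC.fl_eq hv hm⟩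

theorem fl_of_zero (hv : SmV I v) {x : M} (hx : v x = 0) (t : ℝ) :
    (t, x) ∈ dom v ∧ fl v t x = x := by
  have hC : Cur v x (-(|t| + 1)) (|t| + 1) (fun _ => x) :=
    ⟨⟨by linarith [abs_nonneg t], by linarith [abs_nonneg t]⟩, rfl,
      (isMIntegralCurve_const hx).isMIntegralCurveOn _⟩
  have hm : t ∈ Ioo (-(|t| + 1)) (|t| + 1) :=
    ⟨by linarith [neg_abs_le t], by linarith [le_abs_self t]⟩
  exact ⟨hC.mem hm, hC.fl_eq hv hm⟩

/-- a field vanishing off a compact set is complete -/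
theorem complete_of_compact (hv : SmV I v) {K : Set M} (hK : IsCompact K)
    (h0 : ∀ x ∉ K, v x = 0) (p : ℝ × M) : p ∈ dom v := by
  obtain ⟨t, x⟩ := p
  by_cases hx : x ∈ K
  · refine mem_dom_of_compact hv hK fun s _ hs => ?_
    by_contra hn
    have h1 := (neg_mem_dom hv hs).2
    rw [(fl_of_zero hv (h0 _ hn) _).2] at h1
    exact hn (h1.symm ▸ hx)
  · exact (fl_of_zero hv (h0 x hx) t).1

theorem complete_of_compactSpace [CompactSpace M] (hv : SmV I v) (p : ℝ × M) : p ∈ dom v :=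
  complete_of_compact hv isCompact_univ (fun x hx => (hx (mem_univ x)).elim) p

end Crest.Agent.X212.Flo26
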